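import Vale.Agent.P022.H116.Spec
import Vale.Agent.P024.H539.PropA

/-! Block (a5) of the first inequality: ambiguous elements modulo the `m`-units. -/

namespace Vale.Agent.P022.CFT

open NumberField IsDedekindDomain
open Vale.Agent.P024.M3 (e1 dd Unr)
open Vale.Agent.P024.H539 (mv mv_asIdeal VU mem_VU finite_val exists_under exists_mv ov ov_over
  ov_injective val_const FU val_eq_of_unr ker_dd valuation_mv)
open scoped Pointwise

/-- Elements of `K` with prescribed valuations outside `m`. -/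
theorem exists_of_gen {K : Type} [Field K] [NumberField K] {m : ℕ} (hgen : Gen K m)
    (n : HeightOneSpectrum (𝓞 K) → ℤ) (hn : {P | n P ≠ 0}.Finite) :
    ∃ c : Kˣ, ∀ P : HeightOneSpectrum (𝓞 K), (m : 𝓞 K) ∉ P.asIdeal →
      P.valuation K (c : K) = WithZero.exp (-n P) := by
  classical
  choose! y hy hy' using hgen
  let s : Finset (HeightOneSpectrum (𝓞 K)) := hn.toFinset.filter fun P => (m : 𝓞 K) ∉ P.asIdeal
  refine ⟨∏ P ∈ s, y P ^ n P, fun P hP => ?_⟩
  rw [Units.coe_prod, map_prod]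
  have h1 : ∀ Q ∈ s, Q ≠ P → P.valuation K ((y Q ^ n Q : Kˣ) : K) = 1 := by
    intro Q hQ hQP
    have hQm : (m : 𝓞 K) ∉ Q.asIdeal := (Finset.mem_filter.1 hQ).2
    rw [Units.val_zpow_eq_zpow_val, map_zpow₀, hy' Q hQm P hQP.symm hP, one_zpow]
  by_cases hPs : P ∈ s
  · rw [Finset.prod_eq_single P h1 (fun h => absurd hPs h), Units.val_zpow_eq_zpow_val, map_zpow₀,
      hy P hP, ← WithZero.exp_zsmul]
    simp
  · rw [Finset.prod_eq_one (fun Q hQ => h1 Q hQ (fun h => hPs (h ▸ hQ)))]
    have h0 : n P = 0 := by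
      by_contra h
      exact hPs (Finset.mem_filter.2 ⟨hn.mem_toFinset.2 h, hP⟩)
    rw [h0, neg_zero, WithZero.exp_zero]

/-- **(a5)** -/
theorem propE1 : PropE1 := by
  intro K L _ _ _ _ _ _ σ hσ m hm hgen hun
  classical
  let S : Set (HeightOneSpectrum (𝓞 L)) := {w | (m : 𝓞 L) ∉ w.asIdeal}
  have hS : ∀ (g : L ≃ₐ[K] L), ∀ w ∈ S, mv g w ∈ S := by
    intro g w hw h
    apply hw
    have h1 : g⁻¹ • (m : 𝓞 L) ∈ g⁻¹ • (mv g w).asIdeal := Ideal.smul_mem_pointwise_smul _ _ _ h
    rw [mv_asIdeal, inv_smul_smul] at h1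
    have h2 : g⁻¹ • (m : 𝓞 L) = (m : 𝓞 L) :=
      map_natCast (MulSemiringAction.toRingHom (L ≃ₐ[K] L) (𝓞 L) g⁻¹) m
    rwa [h2] at h1
  unfold e1
  rw [ker_dd hσ, Subgroup.relIndex_eq_one]
  intro x hx
  have hbv : ∀ w ∈ S, w.valuation L (σ (x : L)) = w.valuation L (x : L) := by
    intro w hw
    have h1 : w.valuation L ((dd σ x : Lˣ) : L) = 1 := hx w hw
    have h2 : ((dd σ x : Lˣ) : L) = σ (x : L) / x := by
      change ((Units.map (σ : L →* L) x / x : Lˣ) : L) = _
      rw [Units.val_div_eq_div_val]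
      rfl
    rw [h2, map_div₀] at h1
    exact (div_eq_one_iff_eq (by simp)).1 h1
  have hconst := val_const hσ hS hbv
  obtain ⟨c, hc⟩ := exists_of_gen hgen
    (fun P => -WithZero.log ((ov L P).valuation L (x : L))) (by
      refine ((finite_val x).preimage (ov_injective (F := K) (L := L)).injOn).subset fun P hP => ?_
      intro h1
      apply hP
      rw [h1]
      simp)
  have hcb : ∀ w ∈ S, w.valuation L (algebraMap K L (c : K)) = w.valuation L (x : L) := by
    intro w hw
    obtain ⟨P, hP⟩ := exists_under K w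
    obtain ⟨g, hg⟩ := exists_mv (ov_over (L := L) P) hP
    have hPm : (m : 𝓞 K) ∉ P.asIdeal := by
      intro h
      apply hw
      rw [hP.over, Ideal.mem_comap, map_natCast] at h
      exact h
    rw [val_eq_of_unr (hun w hw) hP, hc P hPm, neg_neg, WithZero.exp_log (by simp),
      ← hconst g w hw, ← hg, valuation_mv]
  have e : x = Units.map (algebraMap K L : K →* L) c *
      ((Units.map (algebraMap K L : K →* L) c)⁻¹ * x) := by
    rw [mul_inv_cancel_left]
  rw [e]
  refine Subgroup.mul_mem_sup ⟨c, rfl⟩ fun w hw => ?_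
  rw [Units.val_mul, map_mul, Units.val_inv_eq_inv_val, map_inv₀]
  have h2 : ((Units.map (algebraMap K L : K →* L) c : Lˣ) : L) = algebraMap K L (c : K) := rfl
  rw [h2, hcb w hw]
  exact inv_mul_cancel₀ (by simp)

end Vale.Agent.P022.CFT
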